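import Vale.Agent.P143.Statement
import Mathlib.LinearAlgebra.Matrix.PosDef

/-!
# P143: definitions for the determinantal part of the final statement
-/

namespace Vale.Agent.P143.Det

open MeasureTheory unitInterval
open scoped ComplexOrder

/-- `Q` is the matrix of a positive contraction of `ℓ²(X)`: `Q` and `1 - Q` are Hermitian and
nonnegative on finitely supported vectors. -/
def IsContraction {X : Type*} [DecidableEq X] (Q : Matrix X X ℂ) : Prop :=
  Q.PosSemidef ∧ (1 - Q).PosSemidef

/-- `μ` is the determinantal probability measure `P^Q` on the subsets of `X`: the probability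
that all points of the finite set `A` are present is `det (Q(x,y))_{x,y ∈ A}`. -/
def IsDetMeasure {X : Type*} [DecidableEq X] (Q : Matrix X X ℂ) (μ : Measure (X → Bool)) :
    Prop :=
  IsProbabilityMeasure μ ∧ ∀ A : Finset X, ((μ.real {ω | ∀ x ∈ A, ω x = true} : ℝ) : ℂ) =
    (Q.submatrix (fun x : A => (x : X)) (fun x : A => (x : X))).det

/-- `μ` is a determinantal probability measure (for some positive contraction). -/
def IsDeterminantal {X : Type*} [DecidableEq X] (μ : Measure (X → Bool)) : Prop :=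
  ∃ Q : Matrix X X ℂ, IsContraction Q ∧ IsDetMeasure Q μ

/-- A Borel function of a measure on the subsets of `ℕ` and of labels, commuting with all
permutations of `ℕ`. -/
structure IsUniversalRule (Φ : Measure (ℕ → Bool) → (ℕ → I) → ℕ → Bool) : Prop where
  measurable : Measurable fun p : Measure (ℕ → Bool) × (ℕ → I) => Φ p.1 p.2
  invariant : ∀ (τ : ℕ ≃ ℕ) (μ : Measure (ℕ → Bool)) (U : ℕ → I) (x : ℕ),
    Φ (μ.map fun ω y => ω (τ.symm y)) (U ∘ τ.symm) (τ x) = Φ μ U x

/-- `μ` is invariant under the action of `Γ` on `X`. -/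
def IsInvariant (Γ : Type*) [Group Γ] {X : Type*} [MulAction Γ X] (μ : Measure (X → Bool)) :
    Prop :=
  ∀ γ : Γ, μ.map (fun ω x => ω (γ⁻¹ • x)) = μ

/-- `μ` is a `Γ`-factor of i.i.d. uniform labels on `Γ`. -/
def IsFactorOfIID (Γ : Type*) [Group Γ] {X : Type*} [MulAction Γ X] (μ : Measure (X → Bool)) :
    Prop :=
  ∃ Φ : (Γ → I) → X → Bool, Measurable Φ ∧
    (∀ (γ : Γ) (U : Γ → I) (x : X), Φ (fun g => U (γ⁻¹ * g)) x = Φ U (γ⁻¹ • x)) ∧
    μ = (iidLabels Γ).map Φ

/-- A Borel function of a graph, a measure on its edge sets and vertex labels, commuting with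
all bijections of the vertex set `ℕ`. -/
structure IsGraphMeasureRule
    (Φ : SimpleGraph ℕ → Measure (Sym2 ℕ → Bool) → (ℕ → I) → Sym2 ℕ → Bool) : Prop where
  measurable : Measurable fun p : SimpleGraph ℕ × Measure (Sym2 ℕ → Bool) × (ℕ → I) =>
    Φ p.1 p.2.1 p.2.2
  invariant : ∀ (τ : ℕ ≃ ℕ) (G : SimpleGraph ℕ) (μ : Measure (Sym2 ℕ → Bool)) (U : ℕ → I)
    (e : Sym2 ℕ), Φ (G.map τ.toEmbedding) (μ.map fun ω f => ω (f.map τ.symm)) (U ∘ τ.symm)
      (e.map τ) = Φ G μ U e

/-- Every positive contraction has exactly one determinantal measure. -/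
def Existence.{u} : Prop :=
  ∀ (X : Type u) [Countable X] [DecidableEq X] (Q : Matrix X X ℂ), IsContraction Q →
    ∃! μ : Measure (X → Bool), IsDetMeasure Q μ

/-- One universal Borel rule produces all determinantal measures from i.i.d. labels. -/
def Universal : Prop :=
  ∃ Φ : Measure (ℕ → Bool) → (ℕ → I) → ℕ → Bool, IsUniversalRule Φ ∧
    ∀ μ : Measure (ℕ → Bool), IsDeterminantal μ → (iidLabels ℕ).map (Φ μ) = μ

/-- All invariant determinantal measures are factors of i.i.d., for all groups and all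
countable sets on which they act with finite stabilizers. -/
def Groups.{u, v} : Prop :=
  ∀ (Γ : Type u) (X : Type v) [Group Γ] [Countable X] [DecidableEq X] [MulAction Γ X],
    (∀ x : X, Finite (MulAction.stabilizer Γ x)) →
    ∀ μ : Measure (X → Bool), IsDeterminantal μ → IsInvariant Γ μ → IsFactorOfIID Γ μ

/-- In particular on the edges of every Cayley graph, in the terms of the problem. -/
def CayleyEdges.{u} : Prop :=
  ∀ (Γ : Type u) [Group Γ] [Countable Γ] (S : Set Γ)
    [DecidableEq (SimpleGraph.mulCayley S).edgeSet]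
    (μ : Measure ((SimpleGraph.mulCayley S).edgeSet → Bool)), IsDeterminantal μ →
    (∀ γ : Γ, μ.map (fun ω e => ω ((leftMul S γ⁻¹).mapEdgeSet e)) = μ) → IsGroupFactor S μ

/-- One graph rule for all determinantal measures on the edges of all locally finite graphs. -/
def Graphs : Prop :=
  ∃ Φ : SimpleGraph ℕ → Measure (Sym2 ℕ → Bool) → (ℕ → I) → Sym2 ℕ → Bool,
    IsGraphMeasureRule Φ ∧ ∀ G : SimpleGraph ℕ, (∀ v, (G.neighborSet v).Finite) →
      ∀ μ : Measure (Sym2 ℕ → Bool), IsDeterminantal μ →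
        (∀ e ∉ G.edgeSet, μ {ω | ω e = true} = 0) → (iidLabels ℕ).map (Φ G μ) = μ

end Vale.Agent.P143.Det
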