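import Vale.Agent.P143.H726.Mat
import Mathlib.MeasureTheory.Measure.Prokhorov

set_option linter.all false

/-!
Existence and uniqueness of the probability measure on the subsets of a countable set with
given inclusion probabilities; application to determinantal measures.
-/

namespace Vale.Agent.P143.H726

open MeasureTheory Filter Topology Matrix
open scoped ComplexOrder

section Generic

variable {E : Type*}

theorem measurableSet_incl (A : Finset E) :
    MeasurableSet {ω : E → Bool | ∀ x ∈ A, ω x = true} := by
  have : {ω : E → Bool | ∀ x ∈ A, ω x = true} = ⋂ x ∈ A, {ω | ω x = true} := by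
    ext ω; simp only [Set.mem_ofPred_eq, Set.mem_iInter]
  rw [this]
  refine Finset.measurableSet_biInter _ fun x _ => ?_
  have h : MeasurableSet ((fun ω : E → Bool => ω x) ⁻¹' {true}) :=
    measurable_pi_apply x (measurableSet_singleton true)
  exact h

/-- inclusion probabilities determine the measure -/
theorem ext_of_incl [Countable E] {μ ν : Measure (E → Bool)} [IsProbabilityMeasure μ]
    [IsProbabilityMeasure ν]
    (h : ∀ A : Finset E, μ {ω | ∀ x ∈ A, ω x = true} = ν {ω | ∀ x ∈ A, ω x = true}) :
    μ = ν := by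
  classical
  refine ext_of_generate_finite
    (Set.range fun A : Finset E => {ω : E → Bool | ∀ x ∈ A, ω x = true}) ?_ ?_ ?_ (by simp)
  · refine le_antisymm ?_ ?_
    · refine iSup_le fun x => ?_
      rw [← measurable_iff_comap_le]
      refine @measurable_to_bool _ (MeasurableSpace.generateFrom _) _ ?_
      refine MeasurableSpace.measurableSet_generateFrom ⟨{x}, ?_⟩
      ext ω
      simp
    · refine MeasurableSpace.generateFrom_le ?_
      rintro _ ⟨A, rfl⟩
      exact measurableSet_incl A
  · rintro _ ⟨A, rfl⟩ _ ⟨B, rfl⟩ _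
    refine ⟨A ∪ B, ?_⟩
    ext ω
    simp only [Set.mem_inter_iff, Set.mem_ofPred_eq, Finset.mem_union]
    constructor
    · intro h
      exact ⟨fun x hx => h x (Or.inl hx), fun x hx => h x (Or.inr hx)⟩
    · rintro ⟨h1, h2⟩ x (hx | hx)
      · exact h1 x hx
      · exact h2 x hx
  · rintro _ ⟨A, rfl⟩
    exact h A

/-- the indicator of the event that all points of `A` are present -/
noncomputable def inclFun (A : Finset E) (ω : E → Bool) : ℝ :=
  ∏ x ∈ A, (if ω x = true then 1 else 0)

theorem inclFun_eq (A : Finset E) :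
    inclFun A = Set.indicator {ω : E → Bool | ∀ x ∈ A, ω x = true} 1 := by
  classical
  funext ω
  unfold inclFun
  by_cases h : ∀ x ∈ A, ω x = true
  · rw [Set.indicator_of_mem (by exact h)]
    exact Finset.prod_eq_one fun x hx => by rw [if_pos (h x hx)]
  · rw [Set.indicator_of_notMem (by exact h)]
    push Not at h
    obtain ⟨x, hx, hx'⟩ := h
    exact Finset.prod_eq_zero hx (by rw [if_neg hx'])

theorem continuous_inclFun (A : Finset E) : Continuous (inclFun A) := by
  refine continuous_finsetProd _ fun x _ => ?_
  have h : Continuous (fun b : Bool => if b = true then (1 : ℝ) else 0) :=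
    continuous_of_discreteTopology
  exact h.comp (continuous_apply x)

theorem integral_inclFun (A : Finset E) (μ : Measure (E → Bool)) :
    ∫ ω, inclFun A ω ∂μ = μ.real {ω | ∀ x ∈ A, ω x = true} := by
  rw [inclFun_eq, integral_indicator_one (measurableSet_incl A)]

/-- existence of a measure with given inclusion probabilities -/
theorem exists_of_incl [Countable E] [DecidableEq E] (m : Finset E → ℝ)
    (p : Finset E → Finset E → ℝ) (hp : ∀ F T, 0 ≤ p F T)
    (hsum : ∀ F A, A ⊆ F → ∑ T ∈ F.powerset with A ⊆ T, p F T = m A) (hm : m ∅ = 1) :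
    ∃ μ : Measure (E → Bool), IsProbabilityMeasure μ ∧
      ∀ A : Finset E, μ.real {ω | ∀ x ∈ A, ω x = true} = m A := by
  let pt : Finset E → E → Bool := fun T x => decide (x ∈ T)
  let μF : Finset E → Measure (E → Bool) := fun F =>
    ∑ T ∈ F.powerset, ENNReal.ofReal (p F T) • Measure.dirac (pt T)
  have hint : ∀ F A, A ⊆ F → (μF F) {ω | ∀ x ∈ A, ω x = true} = ENNReal.ofReal (m A) := by
    intro F A hA
    simp only [μF, Measure.coe_finset_sum, Finset.sum_apply, Measure.coe_smul, Pi.smul_apply,
      smul_eq_mul]
    rw [← hsum F A hA, Finset.sum_filter, ENNReal.ofReal_sum_of_nonneg]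
    · refine Finset.sum_congr rfl fun T _ => ?_
      rw [Measure.dirac_apply' _ (measurableSet_incl A)]
      by_cases h : A ⊆ T
      · rw [if_pos h, Set.indicator_of_mem, Pi.one_apply, mul_one]
        intro x hx
        simpa [pt] using h hx
      · rw [if_neg h, Set.indicator_of_notMem, mul_zero, ENNReal.ofReal_zero]
        intro h'
        apply h
        intro x hx
        have := h' x hx
        simpa [pt] using this
    · intro T _
      split_ifs
      · exact hp F T
      · exact le_rfl
  have hprob : ∀ F, IsProbabilityMeasure (μF F) := by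
    intro F
    constructor
    have := hint F ∅ (Finset.empty_subset F)
    simpa [hm] using this
  let P : Finset E → ProbabilityMeasure (E → Bool) := fun F => ⟨μF F, hprob F⟩
  let U : Ultrafilter (Finset E) := Ultrafilter.of atTop
  obtain ⟨μ, -, hμ⟩ := isCompact_univ.ultrafilter_le_nhds (U.map P) (by simp)
  have hlim : Tendsto P (U : Filter (Finset E)) (𝓝 μ) := hμ
  rw [ProbabilityMeasure.tendsto_iff_forall_integral_tendsto] at hlim
  refine ⟨(μ : Measure (E → Bool)), inferInstance, fun A => ?_⟩
  have h1 := hlim (BoundedContinuousFunction.mkOfCompact ⟨inclFun A, continuous_inclFun A⟩)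
  have h2 : ∀ ν : Measure (E → Bool), ∫ ω, (BoundedContinuousFunction.mkOfCompact
      ⟨inclFun A, continuous_inclFun A⟩ : BoundedContinuousFunction (E → Bool) ℝ) ω ∂ν =
      ν.real {ω | ∀ x ∈ A, ω x = true} := fun ν => integral_inclFun A ν
  simp only [h2] at h1
  have h3 : ∀ᶠ F in (U : Filter (Finset E)),
      (P F : Measure (E → Bool)).real {ω | ∀ x ∈ A, ω x = true} = m A := by
    have h4 : ∀ᶠ F in (atTop : Filter (Finset E)), A ⊆ F := eventually_ge_atTop A
    filter_upwards [(Ultrafilter.of_le (f := (atTop : Filter (Finset E)))) h4] with F hF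
    have hmA : 0 ≤ m A := by
      rw [← hsum F A hF]
      exact Finset.sum_nonneg fun T _ => hp F T
    change (μF F).real _ = _
    rw [measureReal_def, hint F A hF, ENNReal.toReal_ofReal hmA]
  exact tendsto_nhds_unique h1 (tendsto_const_nhds.congr' (h3.mono fun F h => h.symm))

end Generic

section Det

variable {X : Type*}

/-- restriction of an infinite matrix to a finite set -/
def sec (Q : Matrix X X ℂ) (F : Finset X) : Matrix F F ℂ :=
  Q.submatrix (fun x : F => (x : X)) (fun x : F => (x : X))

theorem sec_one_sub [DecidableEq X] (Q : Matrix X X ℂ) (F : Finset X) :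
    1 - sec Q F = sec (1 - Q) F := by
  ext x y
  simp only [sec, Matrix.sub_apply, submatrix_apply, one_apply, Subtype.ext_iff]

theorem posSemidef_sec {Q : Matrix X X ℂ} (h : Q.PosSemidef) (F : Finset X) :
    (sec Q F).PosSemidef := h.submatrix _

variable [DecidableEq X]

/-- probability of the pattern `T` in the window `F` -/
noncomputable def pF (Q : Matrix X X ℂ) (F T : Finset X) : ℝ :=
  (pr (sec Q F) (T.subtype (· ∈ F))).re

theorem pF_nonneg {Q : Matrix X X ℂ} (h0 : Q.PosSemidef) (h1 : (1 - Q).PosSemidef)
    (F T : Finset X) : 0 ≤ pF Q F T := by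
  have h := pr_nonneg (posSemidef_sec h0 F) (by rw [sec_one_sub]; exact posSemidef_sec h1 F)
    (T.subtype (· ∈ F))
  exact (Complex.le_def.1 h).1

theorem det_sec_subtype (Q : Matrix X X ℂ) {F A : Finset X} (hA : A ⊆ F) :
    det ((sec Q F).submatrix (fun i : A.subtype (· ∈ F) => (i : F))
      (fun i : A.subtype (· ∈ F) => (i : F))) = det (sec Q A) := by
  let e : A.subtype (· ∈ F) ≃ A :=
    { toFun := fun x => ⟨x.1.1, Finset.mem_subtype.1 x.2⟩
      invFun := fun x => ⟨⟨x.1, hA x.2⟩, Finset.mem_subtype.2 x.2⟩
      left_inv := fun x => rfl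
      right_inv := fun x => rfl }
  rw [← det_submatrix_equiv_self e (sec Q A)]
  rfl

theorem sum_pF (Q : Matrix X X ℂ) {F A : Finset X} (hA : A ⊆ F) :
    ∑ T ∈ F.powerset with A ⊆ T, pF Q F T = (det (sec Q A)).re := by
  rw [← det_sec_subtype Q hA, ← sum_pr_superset, Complex.re_sum]
  refine Finset.sum_nbij' (fun T => T.subtype (· ∈ F))
    (fun T' => T'.map (Function.Embedding.subtype _)) ?_ ?_ ?_ ?_ ?_
  · intro T hT
    simp only [Finset.mem_filter, Finset.mem_powerset, Finset.mem_univ, true_and] at hT ⊢
    intro x hx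
    rw [Finset.mem_subtype] at hx ⊢
    exact hT.2 hx
  · intro T hT
    simp only [Finset.mem_filter, Finset.mem_powerset, Finset.mem_univ, true_and] at hT ⊢
    constructor
    · intro x hx
      simp only [Finset.mem_map, Function.Embedding.subtype_apply, Subtype.exists,
        exists_and_right, exists_eq_right] at hx
      exact hx.1
    · intro x hx
      simp only [Finset.mem_map, Function.Embedding.subtype_apply, Subtype.exists,
        exists_and_right, exists_eq_right]
      exact ⟨hA hx, hT (Finset.mem_subtype.2 hx)⟩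
  · intro T hT
    simp only [Finset.mem_filter, Finset.mem_powerset] at hT
    exact Finset.subtype_map_of_mem fun x hx => hT.1 hx
  · intro T _
    ext x
    simp
  · intro T _
    rfl

theorem det_sec_real {Q : Matrix X X ℂ} (h0 : Q.PosSemidef) (A : Finset X) :
    (((det (sec Q A)).re : ℝ) : ℂ) = det (sec Q A) := by
  have h := (posSemidef_sec h0 A).det_nonneg
  exact Complex.ext (by simp) (by simpa using (Complex.le_def.1 h).2)

/-- every positive contraction has a determinantal measure -/
theorem exists_det [Countable X] {Q : Matrix X X ℂ} (h0 : Q.PosSemidef)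
    (h1 : (1 - Q).PosSemidef) :
    ∃ μ : Measure (X → Bool), IsProbabilityMeasure μ ∧
      ∀ A : Finset X, ((μ.real {ω | ∀ x ∈ A, ω x = true} : ℝ) : ℂ) = det (sec Q A) := by
  obtain ⟨μ, hμ, h⟩ := exists_of_incl (fun A => (det (sec Q A)).re) (pF Q)
    (pF_nonneg h0 h1) (fun F A hA => sum_pF Q hA) (by simp)
  exact ⟨μ, hμ, fun A => by rw [h A, det_sec_real h0]⟩

/-- and only one -/
theorem det_unique' [Countable X] {Q : Matrix X X ℂ} {μ ν : Measure (X → Bool)}
    (hμ : IsProbabilityMeasure μ) (hν : IsProbabilityMeasure ν)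
    (h : ∀ A : Finset X, ((μ.real {ω | ∀ x ∈ A, ω x = true} : ℝ) : ℂ) = det (sec Q A))
    (h' : ∀ A : Finset X, ((ν.real {ω | ∀ x ∈ A, ω x = true} : ℝ) : ℂ) = det (sec Q A)) :
    μ = ν := by
  refine ext_of_incl fun A => ?_
  have h2 : μ.real {ω | ∀ x ∈ A, ω x = true} = ν.real {ω | ∀ x ∈ A, ω x = true} := by
    have := (h A).trans (h' A).symm
    exact_mod_cast this
  rwa [measureReal_def, measureReal_def, ENNReal.toReal_eq_toReal_iff' (measure_ne_top _ _)
    (measure_ne_top _ _)] at h2

end Det

end Vale.Agent.P143.H726
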