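import Vale.Agent.P143.H71.Mat2
import Vale.Agent.P143.H726.Exist
import Mathlib.Analysis.CStarAlgebra.ContinuousLinearMap
import Mathlib.Analysis.CStarAlgebra.ContinuousFunctionalCalculus.Instances
import Mathlib.Analysis.CStarAlgebra.ContinuousFunctionalCalculus.Basic
import Mathlib.Analysis.InnerProductSpace.StarOrder
import Mathlib.Analysis.SpecialFunctions.ContinuousFunctionalCalculus.Rpow.Basic

set_option linter.all false

/-!
From an infinite matrix `Q` with `0 ≤ Q ≤ 1` to the operator on `ℓ²(X)` and its square root.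
-/

namespace Vale.Agent.P143.H726

open Filter Topology Matrix
open H71 (L2)
open scoped ComplexOrder InnerProductSpace ComplexConjugate ENNReal

theorem exists_sqrt {H : Type*} [NormedAddCommGroup H] [InnerProductSpace ℂ H]
    [CompleteSpace H] (T : H →L[ℂ] H) (hT : 0 ≤ T) :
    ∃ S : H →L[ℂ] H, S.IsPositive ∧ S * S = T := by
  refine ⟨CFC.sqrt T, ?_, CFC.sqrt_mul_sqrt_self T hT⟩
  exact (ContinuousLinearMap.nonneg_iff_isPositive _).1 (CFC.sqrt_nonneg T)

section Fin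

variable {n : Type*} [Fintype n] [DecidableEq n]

theorem sum_norm_mulVec_le {Q : Matrix n n ℂ} (h0 : Q.PosSemidef) (h1 : (1 - Q).PosSemidef)
    (v : n → ℂ) : ∑ i, ‖(Q *ᵥ v) i‖ ^ 2 ≤ ∑ i, ‖v i‖ ^ 2 := by
  have e : (1 : Matrix n n ℂ) - Q * Q = (1 - Q) + (Q - Q * Q) := by abel
  have h2 : ((1 : Matrix n n ℂ) - Q * Q).PosSemidef := by
    rw [e]; exact h1.add (posSemidef_sub_sq h0 h1)
  have h3 := h2.dotProduct_mulVec_nonneg v
  have h4 : star v ⬝ᵥ ((Q * Q) *ᵥ v) = ((∑ i, ‖(Q *ᵥ v) i‖ ^ 2 : ℝ) : ℂ) := by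
    rw [← mulVec_mulVec, dotProduct_mulVec]
    have e : star v ᵥ* Q = star (Q *ᵥ v) := by
      rw [star_mulVec, h0.isHermitian.eq]
    rw [e]
    simp only [dotProduct, Pi.star_apply]
    push_cast
    refine Finset.sum_congr rfl fun i _ => ?_
    rw [← Complex.conj_mul']
    simp only [RCLike.star_def]
  have h5 : star v ⬝ᵥ v = ((∑ i, ‖v i‖ ^ 2 : ℝ) : ℂ) := by
    simp only [dotProduct, Pi.star_apply]
    push_cast
    refine Finset.sum_congr rfl fun i _ => ?_
    rw [← Complex.conj_mul']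
    simp only [RCLike.star_def]
  rw [sub_mulVec, one_mulVec, dotProduct_sub, h4, h5, ← Complex.ofReal_sub] at h3
  have h6 : (0 : ℝ) ≤ ∑ i, ‖v i‖ ^ 2 - ∑ i, ‖(Q *ᵥ v) i‖ ^ 2 := by exact_mod_cast h3
  linarith

end Fin

section Inf

variable {X : Type*} [DecidableEq X] {Q : Matrix X X ℂ}

theorem bound_finite (h0 : Q.PosSemidef) (h1 : (1 - Q).PosSemidef) (F G : Finset X)
    (v : X → ℂ) : ∑ x ∈ F, ‖∑ y ∈ G, Q x y * v y‖ ^ 2 ≤ ∑ y ∈ G, ‖v y‖ ^ 2 := by
  set H := F ∪ G with hH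
  have hF : F ⊆ H := Finset.subset_union_left
  have hG : G ⊆ H := Finset.subset_union_right
  let v' : H → ℂ := fun y => if (y : X) ∈ G then v y else 0
  have h := sum_norm_mulVec_le (posSemidef_sec h0 H)
    (by rw [sec_one_sub]; exact posSemidef_sec h1 H) v'
  have e1 : ∀ x : H, (sec Q H *ᵥ v') x = ∑ y ∈ G, Q x y * v y := by
    intro x
    have : (sec Q H *ᵥ v') x = ∑ y : H, (fun y : X => if y ∈ G then Q x y * v y else 0) y := by
      simp only [mulVec, dotProduct, sec, submatrix_apply, v', mul_ite, mul_zero]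
    rw [this, Finset.sum_coe_sort H (fun y : X => if y ∈ G then Q x y * v y else 0),
      ← Finset.sum_filter]
    congr 1
    ext y
    simp only [Finset.mem_filter]
    exact ⟨fun h => h.2, fun h => ⟨hG h, h⟩⟩
  have e2 : ∑ y : H, ‖v' y‖ ^ 2 = ∑ y ∈ G, ‖v y‖ ^ 2 := by
    have : ∑ y : H, ‖v' y‖ ^ 2 = ∑ y : H, (fun y : X => if y ∈ G then ‖v y‖ ^ 2 else 0) y := by
      refine Finset.sum_congr rfl fun y _ => ?_
      simp only [v']
      split_ifs <;> simp
    rw [this, Finset.sum_coe_sort H (fun y : X => if y ∈ G then ‖v y‖ ^ 2 else 0),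
      ← Finset.sum_filter]
    congr 1
    ext y
    simp only [Finset.mem_filter]
    exact ⟨fun h => h.2, fun h => ⟨hG h, h⟩⟩
  rw [e2] at h
  refine le_trans ?_ h
  simp only [e1]
  rw [Finset.sum_coe_sort H (fun x : X => ‖∑ y ∈ G, Q x y * v y‖ ^ 2)]
  exact Finset.sum_le_sum_of_subset_of_nonneg hF fun _ _ _ => by positivity

theorem row_bound (h0 : Q.PosSemidef) (h1 : (1 - Q).PosSemidef) (x : X) (s : Finset X) :
    ∑ y ∈ s, ‖Q x y‖ ^ 2 ≤ 1 := by
  have h := bound_finite h0 h1 {x} s (fun y => conj (Q x y))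
  rw [Finset.sum_singleton] at h
  have e : ∑ y ∈ s, Q x y * conj (Q x y) = ((∑ y ∈ s, ‖Q x y‖ ^ 2 : ℝ) : ℂ) := by
    push_cast
    exact Finset.sum_congr rfl fun y _ => Complex.mul_conj' _
  rw [e, Complex.norm_real, Real.norm_eq_abs, sq_abs] at h
  simp only [RCLike.norm_conj] at h
  have h2 : 0 ≤ ∑ y ∈ s, ‖Q x y‖ ^ 2 := Finset.sum_nonneg fun _ _ => by positivity
  nlinarith

/-- `lp.single` does not depend on the instance -/
theorem single_inst {Y : Type*} (d1 d2 : DecidableEq Y) (y : Y) (c : ℂ) :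
    (@lp.single Y (fun _ => ℂ) _ d1 2 y c : L2 Y) = @lp.single Y (fun _ => ℂ) _ d2 2 y c := by
  rw [Subsingleton.elim d1 d2]

theorem delta_eq (y : X) : (H71.delta y : L2 X) = lp.single 2 y 1 := by
  unfold H71.delta
  exact single_inst _ _ _ _

/-- the conjugate of a row as a vector of `ℓ²` -/
noncomputable def rowvec (h0 : Q.PosSemidef) (h1 : (1 - Q).PosSemidef) (x : X) : L2 X :=
  ⟨fun y => conj (Q x y), memℓp_gen' (C := 1) fun s => by
    have := row_bound h0 h1 x s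
    simpa using this⟩

theorem rowvec_apply (h0 : Q.PosSemidef) (h1 : (1 - Q).PosSemidef) (x y : X) :
    (rowvec h0 h1 x : X → ℂ) y = conj (Q x y) := rfl

/-- finite truncations of a vector -/
noncomputable def trunc (f : L2 X) (G : Finset X) : L2 X :=
  ∑ y ∈ G, (lp.single 2 y ((f : X → ℂ) y) : L2 X)

theorem tendsto_trunc (f : L2 X) : Tendsto (trunc f) atTop (𝓝 f) :=
  lp.hasSum_single (by norm_num) f

theorem inner_rowvec_trunc (h0 : Q.PosSemidef) (h1 : (1 - Q).PosSemidef) (x : X) (f : L2 X)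
    (G : Finset X) : ⟪rowvec h0 h1 x, trunc f G⟫_ℂ = ∑ y ∈ G, Q x y * (f : X → ℂ) y := by
  unfold trunc
  rw [inner_sum]
  refine Finset.sum_congr rfl fun y _ => ?_
  rw [lp.inner_single_right, rowvec_apply]
  simp [mul_comm]

theorem norm_sq_eq_sum_of_trunc (f : L2 X) (G : Finset X) :
    ∑ y ∈ G, ‖(f : X → ℂ) y‖ ^ 2 ≤ ‖f‖ ^ 2 := by
  have h := lp.sum_rpow_le_norm_rpow (p := 2) (by norm_num) f G
  simpa using h

theorem sum_inner_le (h0 : Q.PosSemidef) (h1 : (1 - Q).PosSemidef) (f : L2 X) (F : Finset X) :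
    ∑ x ∈ F, ‖⟪rowvec h0 h1 x, f⟫_ℂ‖ ^ 2 ≤ ‖f‖ ^ 2 := by
  have hlim : Tendsto (fun G => ∑ x ∈ F, ‖⟪rowvec h0 h1 x, trunc f G⟫_ℂ‖ ^ 2) atTop
      (𝓝 (∑ x ∈ F, ‖⟪rowvec h0 h1 x, f⟫_ℂ‖ ^ 2)) := by
    refine tendsto_finsetSum _ fun x _ => ?_
    exact ((tendsto_const_nhds.inner (tendsto_trunc f)).norm).pow 2
  refine le_of_tendsto' hlim fun G => ?_
  simp only [inner_rowvec_trunc]
  exact (bound_finite h0 h1 F G _).trans (norm_sq_eq_sum_of_trunc f G)

/-- the operator with matrix `Q` -/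
noncomputable def op (h0 : Q.PosSemidef) (h1 : (1 - Q).PosSemidef) : L2 X →L[ℂ] L2 X :=
  LinearMap.mkContinuous
    { toFun := fun f => ⟨fun x => ⟪rowvec h0 h1 x, f⟫_ℂ, memℓp_gen' (C := ‖f‖ ^ 2) fun s => by
        have := sum_inner_le h0 h1 f s
        simpa using this⟩
      map_add' := fun f g => by
        ext x
        exact inner_add_right _ _ _
      map_smul' := fun c f => by
        ext x
        exact inner_smul_right _ _ _ } 1 fun f => by
    rw [one_mul]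
    refine lp.norm_le_of_forall_sum_le (by norm_num) (norm_nonneg _) fun s => ?_
    have := sum_inner_le h0 h1 f s
    simpa using this

theorem op_apply (h0 : Q.PosSemidef) (h1 : (1 - Q).PosSemidef) (f : L2 X) (x : X) :
    (op h0 h1 f : X → ℂ) x = ⟪rowvec h0 h1 x, f⟫_ℂ := rfl

theorem op_single (h0 : Q.PosSemidef) (h1 : (1 - Q).PosSemidef) (x y : X) (c : ℂ) :
    (op h0 h1 (lp.single 2 y c) : X → ℂ) x = Q x y * c := by
  rw [op_apply, lp.inner_single_right, rowvec_apply]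
  simp [mul_comm]

theorem inner_trunc (f g : L2 X) (G : Finset X) :
    ⟪trunc f G, g⟫_ℂ = ∑ x ∈ G, conj ((f : X → ℂ) x) * (g : X → ℂ) x := by
  unfold trunc
  rw [sum_inner]
  refine Finset.sum_congr rfl fun x _ => ?_
  rw [lp.inner_single_left]
  simp [mul_comm]

theorem trunc_apply (f : L2 X) {G : Finset X} {x : X} (hx : x ∈ G) :
    (trunc f G : X → ℂ) x = (f : X → ℂ) x := by
  unfold trunc
  rw [lp.coeFn_sum, Finset.sum_apply, Finset.sum_eq_single x]
  · exact lp.single_apply_self _ _ _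
  · intro y _ hy
    exact lp.single_apply_ne _ _ _ hy.symm
  · intro h; exact absurd hx h

/-- the quadratic form on truncations -/
theorem inner_op_trunc (h0 : Q.PosSemidef) (h1 : (1 - Q).PosSemidef) (f : L2 X)
    (G : Finset X) : ⟪trunc f G, op h0 h1 (trunc f G)⟫_ℂ =
      ∑ x ∈ G, conj ((f : X → ℂ) x) * ∑ y ∈ G, Q x y * (f : X → ℂ) y := by
  rw [inner_trunc]
  refine Finset.sum_congr rfl fun x _ => ?_
  rw [op_apply, inner_rowvec_trunc]

theorem form_nonneg (h0 : Q.PosSemidef) (f : X → ℂ) (G : Finset X) :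
    0 ≤ ∑ x ∈ G, conj (f x) * ∑ y ∈ G, Q x y * f y := by
  have h := (posSemidef_sec h0 G).dotProduct_mulVec_nonneg (fun y : G => f y)
  have e : star (fun y : G => f y) ⬝ᵥ (sec Q G *ᵥ fun y : G => f y) =
      ∑ x ∈ G, conj (f x) * ∑ y ∈ G, Q x y * f y := by
    rw [← Finset.sum_coe_sort G (fun x : X => conj (f x) * ∑ y ∈ G, Q x y * f y)]
    simp only [dotProduct, mulVec, sec, submatrix_apply, Pi.star_apply]
    refine Finset.sum_congr rfl fun x _ => ?_
    rw [← Finset.sum_coe_sort G (fun y : X => Q x y * f y)]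
    rfl
  rwa [e] at h

theorem inner_op_nonneg (h0 : Q.PosSemidef) (h1 : (1 - Q).PosSemidef) (f : L2 X) :
    0 ≤ ⟪f, op h0 h1 f⟫_ℂ := by
  have hlim : Tendsto (fun G => ⟪trunc f G, op h0 h1 (trunc f G)⟫_ℂ) atTop
      (𝓝 ⟪f, op h0 h1 f⟫_ℂ) :=
    (tendsto_trunc f).inner (((op h0 h1).continuous.tendsto f).comp (tendsto_trunc f))
  refine ge_of_tendsto' hlim fun G => ?_
  rw [inner_op_trunc]
  exact form_nonneg h0 _ G

theorem inner_one_sub_op_nonneg (h0 : Q.PosSemidef) (h1 : (1 - Q).PosSemidef) (f : L2 X) :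
    0 ≤ ⟪f, f - op h0 h1 f⟫_ℂ := by
  have hlim : Tendsto (fun G => ⟪trunc f G, trunc f G - op h0 h1 (trunc f G)⟫_ℂ) atTop
      (𝓝 ⟪f, f - op h0 h1 f⟫_ℂ) :=
    (tendsto_trunc f).inner ((tendsto_trunc f).sub
      (((op h0 h1).continuous.tendsto f).comp (tendsto_trunc f)))
  refine ge_of_tendsto' hlim fun G => ?_
  rw [inner_sub_right, inner_op_trunc]
  have h2 := form_nonneg h1 (f : X → ℂ) G
  have e : ∑ x ∈ G, conj ((f : X → ℂ) x) * ∑ y ∈ G, (1 - Q) x y * (f : X → ℂ) y =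
      ⟪trunc f G, trunc f G⟫_ℂ -
        ∑ x ∈ G, conj ((f : X → ℂ) x) * ∑ y ∈ G, Q x y * (f : X → ℂ) y := by
    have e1 : ∀ x ∈ G, ∑ y ∈ G, (1 - Q) x y * (f : X → ℂ) y =
        (f : X → ℂ) x - ∑ y ∈ G, Q x y * (f : X → ℂ) y := by
      intro x hx
      simp only [Matrix.sub_apply, sub_mul, Finset.sum_sub_distrib]
      congr 1
      simp only [one_apply, ite_mul, one_mul, zero_mul]
      rw [Finset.sum_ite_eq G x]
      simp [hx]
    rw [Finset.sum_congr rfl fun x hx => by rw [e1 x hx, mul_sub], Finset.sum_sub_distrib]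
    congr 1
    rw [inner_trunc]
    exact Finset.sum_congr rfl fun x hx => by rw [trunc_apply f hx]
  rwa [e] at h2

theorem op_nonneg (h0 : Q.PosSemidef) (h1 : (1 - Q).PosSemidef) : 0 ≤ op h0 h1 := by
  rw [ContinuousLinearMap.nonneg_iff_isPositive, ContinuousLinearMap.isPositive_iff_complex]
  intro f
  have h := inner_op_nonneg h0 h1 f
  rw [← inner_conj_symm] at h
  have h2 := Complex.le_def.1 h
  rw [Complex.conj_re, Complex.conj_im, Complex.zero_re, Complex.zero_im] at h2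
  refine ⟨Complex.ext (by simp) ?_, h2.1⟩
  rw [Complex.ofReal_im]
  linarith [h2.2]

theorem op_le_one (h0 : Q.PosSemidef) (h1 : (1 - Q).PosSemidef) : op h0 h1 ≤ 1 := by
  rw [ContinuousLinearMap.le_def, ContinuousLinearMap.isPositive_iff_complex]
  intro f
  have h := inner_one_sub_op_nonneg h0 h1 f
  rw [← inner_conj_symm] at h
  have h2 := Complex.le_def.1 h
  have e : (1 - op h0 h1) f = f - op h0 h1 f := rfl
  rw [e]
  rw [Complex.conj_re, Complex.conj_im, Complex.zero_re, Complex.zero_im] at h2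
  refine ⟨Complex.ext (by simp) ?_, h2.1⟩
  rw [Complex.ofReal_im]
  linarith [h2.2]

/-- the square root -/
theorem exists_root (h0 : Q.PosSemidef) (h1 : (1 - Q).PosSemidef) :
    ∃ S : L2 X →L[ℂ] L2 X, H71.IsRoot S ∧
      ∀ x y, (S (S (H71.delta y)) : X → ℂ) x = Q x y := by
  have hT := op_nonneg h0 h1
  have hT1 := op_le_one h0 h1
  set T := op h0 h1 with hTdef
  obtain ⟨S, hS, hSS⟩ := exists_sqrt T hT
  have hSsa : ∀ x y, ⟪S x, y⟫_ℂ = ⟪x, S y⟫_ℂ := hS.isSymmetric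
  refine ⟨S, ⟨hSsa, fun f => ?_⟩, fun x y => ?_⟩
  · have h2 : ⟪S f, S f⟫_ℂ = ⟪f, T f⟫_ℂ := by
      rw [hSsa, ← hSS]; rfl
    have h3 := (Complex.le_def.1 (inner_one_sub_op_nonneg h0 h1 f)).1
    rw [inner_sub_right, ← hTdef, ← h2, Complex.sub_re, Complex.zero_re] at h3
    have h4 : (⟪S f, S f⟫_ℂ).re = ‖S f‖ ^ 2 := by
      have := inner_self_eq_norm_sq (𝕜 := ℂ) (S f)
      simpa using this
    have h5 : (⟪f, f⟫_ℂ).re = ‖f‖ ^ 2 := by
      have := inner_self_eq_norm_sq (𝕜 := ℂ) f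
      simpa using this
    rw [h4, h5] at h3
    exact le_of_sq_le_sq (by linarith) (norm_nonneg _)
  · have h2 : S (S (H71.delta y)) = T (H71.delta y) := by
      rw [← hSS]; rfl
    rw [h2, hTdef]
    rw [delta_eq, op_single, mul_one]

end Inf

end Vale.Agent.P143.H726
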