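import Vale.Agent.P143.H726.Exist
import Vale.Agent.P143.H726.Defs
namespace Vale.Agent.P143.Det
open H726
theorem existence : Existence := by
  intro X _ _ Q hQ
  obtain ⟨μ, hμ, h⟩ := exists_det hQ.1 hQ.2
  exact ⟨μ, ⟨hμ, h⟩, fun ν hν => det_unique' hν.1 hμ hν.2 h⟩
end Vale.Agent.P143.Det
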