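import Vale.Agent.P143.H726.Root
import Vale.Agent.P143.H726.Ex
import Vale.Agent.P143.H536.GraphRule
import Vale.Agent.P143.H71.Fin
import Vale.Agent.P143.H985.Prop

/-!
Assembly of the determinantal theorem.
-/

namespace Vale.Agent.P143.Det

open MeasureTheory unitInterval H726

/-- bridge from infinite matrices to operators on `ℓ²` -/
theorem IsDeterminantal.op_form {X : Type*} [DecidableEq X] {μ : Measure (X → Bool)}
    (h : IsDeterminantal μ) : H71.IsDeterminantal μ := by
  obtain ⟨Q, ⟨h0, h1⟩, hμ, h⟩ := h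
  refine ⟨hμ, op h0 h1, (ContinuousLinearMap.nonneg_iff_isPositive _).1 (op_nonneg h0 h1),
    (ContinuousLinearMap.le_def _ _).1 (op_le_one h0 h1), fun T => ?_⟩
  rw [h T]
  have e : (Q.submatrix (fun x : T => (x : X)) (fun x : T => (x : X))) =
      Matrix.of fun e f : T => (op h0 h1 (H71.delta (f : X)) : X → ℂ) e := by
    ext x y
    rw [Matrix.of_apply, delta_eq, op_single, mul_one]
    rfl
  rw [e]
  exact det_inst _ _ _ _ _

theorem universal : Universal :=
  ⟨H71.rul, ⟨H71.measurable_rul, fun τ μ U x => H71.rul_tr τ μ U x⟩,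
    fun μ hμ => H71.rul_law hμ.op_form⟩

theorem groups.{u, v} : Groups.{u, v} := by
  intro Γ X _ _ _ _ hst μ hμ hinv
  exact H536.isFactor_of_invariant (fun e => Set.toFinite _) hμ.op_form hinv

theorem cayleyEdges.{u} : CayleyEdges.{u} :=
  fun Γ _ _ S _ μ hμ hinv => H536.cayley_factor S hμ.op_form hinv

theorem graphs : Graphs :=
  ⟨H536.grul, ⟨H536.measurable_grul, H536.grul_map⟩,
    fun G hG μ hμ hA => H536.grul_law G hG hμ.op_form hA⟩

end Vale.Agent.P143.Det
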