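import Vale.Agent.P143.MathlibUsed
import Mathlib.Analysis.Matrix.PosDef
import Mathlib.Analysis.Matrix.Order
import Mathlib.LinearAlgebra.Matrix.SchurComplement
import Mathlib.LinearAlgebra.Matrix.Block

set_option linter.all false

/-!
Finite determinantal measures with kernel `Q`, `0 ≤ Q ≤ 1`: the generating polynomial
`det (1 + (W - 1) Q)`, its coefficients, the tilted marginals and their Lipschitz property.
-/

namespace Vale.Agent.P143.H726

open Matrix Filter Topology
open scoped ComplexOrder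

section Fin

variable {n : Type*} [Fintype n] [DecidableEq n]

/-- the determinant does not depend on the instances -/
theorem det_inst {m : Type*} (d1 d2 : DecidableEq m) (f1 f2 : Fintype m) (M : Matrix m m ℂ) :
    @det m d1 f1 ℂ _ M = @det m d2 f2 ℂ _ M := by
  rw [Subsingleton.elim d1 d2, Subsingleton.elim f1 f2]

/-- the tilt matrix `1 + (W - 1) Q` -/
noncomputable def tm (Q : Matrix n n ℂ) (w : n → ℝ) : Matrix n n ℂ :=
  1 + diagonal (fun i => ((w i : ℝ) : ℂ) - 1) * Q

/-- the probability of the pattern `T` -/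
noncomputable def pr (Q : Matrix n n ℂ) (T : Finset n) : ℂ :=
  det (Matrix.of fun i j => if i ∈ T then Q i j else (1 - Q) i j)

theorem tm_apply (Q : Matrix n n ℂ) (w : n → ℝ) (i j : n) :
    tm Q w i j = (w i : ℂ) * Q i j + (1 - Q) i j := by
  simp only [tm, Matrix.add_apply, Matrix.diagonal_mul, Matrix.sub_apply]
  ring

/-- expansion of a determinant whose rows are sums `w i • Q i + R i` -/
theorem det_expand (Q R : Matrix n n ℂ) (w : n → ℂ) :
    det (Matrix.of fun i j => w i * Q i j + R i j) =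
      ∑ T : Finset n, (∏ i ∈ T, w i) *
        det (Matrix.of fun i j => if i ∈ T then Q i j else R i j) := by
  have h := (Matrix.detRowAlternating (R := ℂ) (n := n)).toMultilinearMap.map_add_univ
    (fun i => w i • (Q i : n → ℂ)) (fun i => (R i : n → ℂ))
  have h1 : det (Matrix.of fun i j => w i * Q i j + R i j) =
      (Matrix.detRowAlternating (R := ℂ) (n := n)).toMultilinearMap
        ((fun i => w i • (Q i : n → ℂ)) + (fun i => (R i : n → ℂ))) := rfl
  rw [h1, h]
  refine Finset.sum_congr rfl fun T _ => ?_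
  have h2 := (Matrix.detRowAlternating (R := ℂ) (n := n)).toMultilinearMap.map_piecewise_smul
    w (fun i => if i ∈ T then (Q i : n → ℂ) else (R i : n → ℂ)) T
  have h3 : T.piecewise (fun i => w i • (Q i : n → ℂ)) (fun i => (R i : n → ℂ)) =
      T.piecewise (fun i => w i • (if i ∈ T then (Q i : n → ℂ) else (R i : n → ℂ)))
        (fun i => if i ∈ T then (Q i : n → ℂ) else (R i : n → ℂ)) := by
    funext i
    by_cases hi : i ∈ T <;> simp [Finset.piecewise, hi]
  rw [h3, h2, smul_eq_mul]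
  congr 1
  have h4 : (Matrix.of fun i j => if i ∈ T then Q i j else R i j) =
      (fun i => if i ∈ T then (Q i : n → ℂ) else (R i : n → ℂ)) := by
    funext i j
    by_cases hi : i ∈ T <;> simp [hi]
  rw [h4]
  rfl

theorem det_tm (Q : Matrix n n ℂ) (w : n → ℝ) :
    det (tm Q w) = ∑ T : Finset n, (∏ i ∈ T, (w i : ℂ)) * pr Q T := by
  have : tm Q w = Matrix.of fun i j => (w i : ℂ) * Q i j + (1 - Q) i j := by
    ext i j
    exact tm_apply Q w i j
  rw [this, det_expand]
  rfl

theorem sum_pr (Q : Matrix n n ℂ) : ∑ T : Finset n, pr Q T = 1 := by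
  have h := det_tm Q (fun _ => 1)
  have h1 : tm Q (fun _ => 1) = 1 := by
    ext i j
    rw [tm_apply]
    simp
  rw [h1, det_one] at h
  rw [h]
  refine Finset.sum_congr rfl fun T _ => ?_
  simp

/-- inclusion probabilities are principal minors -/
theorem sum_pr_superset (Q : Matrix n n ℂ) (A : Finset n) :
    ∑ T : Finset n with A ⊆ T, pr Q T = det (Q.submatrix (fun i : A => (i : n)) (fun i : A => (i : n))) := by
  -- rows `Q` on `A`, rows of the identity off `A`
  have h := det_expand Q (Matrix.of fun i j => if i ∈ A then 0 else (1 - Q) i j) (fun _ => 1)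
  have h1 : (Matrix.of fun i j => (1 : ℂ) * Q i j +
      (Matrix.of fun i j => if i ∈ A then 0 else (1 - Q) i j : Matrix n n ℂ) i j) =
      Matrix.of fun i j => if i ∈ A then Q i j else (1 : Matrix n n ℂ) i j := by
    ext i j
    by_cases hi : i ∈ A <;> simp [hi]
  rw [h1] at h
  have h2 : ∀ T : Finset n, (∏ i ∈ T, (1 : ℂ)) *
      det (Matrix.of fun i j => if i ∈ T then Q i j else
        (Matrix.of fun i j => if i ∈ A then 0 else (1 - Q) i j : Matrix n n ℂ) i j) =
      if A ⊆ T then pr Q T else 0 := by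
    intro T
    rw [Finset.prod_const_one, one_mul]
    by_cases hAT : A ⊆ T
    · rw [if_pos hAT, pr]
      congr 1
      ext i j
      by_cases hi : i ∈ T
      · simp [hi]
      · have : i ∉ A := fun h => hi (hAT h)
        simp [hi, this]
    · rw [if_neg hAT]
      obtain ⟨i, hiA, hiT⟩ := Finset.not_subset.1 hAT
      refine det_eq_zero_of_row_eq_zero i fun j => ?_
      simp [hiA, hiT]
  rw [Finset.sum_congr rfl fun T _ => h2 T, ← Finset.sum_filter] at h
  rw [← h]
  rw [twoBlockTriangular_det _ (fun i => i ∈ A)]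
  · have h3 : (toSquareBlockProp (Matrix.of fun i j => if i ∈ A then Q i j else
        (1 : Matrix n n ℂ) i j) fun i => ¬ i ∈ A) = 1 := by
      ext i j
      simp only [toSquareBlockProp_def, of_apply, if_neg i.2, one_apply, Subtype.ext_iff]
    have h4 : (toSquareBlockProp (Matrix.of fun i j => if i ∈ A then Q i j else
        (1 : Matrix n n ℂ) i j) fun i => i ∈ A) =
        Q.submatrix (fun i : A => (i : n)) (fun i : A => (i : n)) := by
      ext i j
      have hi : (i : n) ∈ A := i.2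
      simp only [toSquareBlockProp_def, of_apply, if_pos hi, submatrix_apply]
    rw [h3, h4, det_one, mul_one]
    exact det_inst _ _ _ _ _
  · intro i hi j hj
    have : i ≠ j := fun h => hi (h ▸ hj)
    simp [hi, this]

/-- tilted marginal in terms of a solution of `M v = e_i` -/
theorem sum_pr_mem (Q : Matrix n n ℂ) (w : n → ℝ) (i : n) (v : n → ℂ)
    (hv : tm Q w *ᵥ v = Pi.single i 1) :
    ∑ T : Finset n with i ∈ T, (∏ j ∈ T, (w j : ℂ)) * pr Q T =
      (w i : ℂ) * (Q *ᵥ v) i * det (tm Q w) := by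
  have h := det_expand Q (Matrix.of fun k j => if k = i then 0 else (1 - Q) k j)
    (fun k => (w k : ℂ))
  have h2 : ∀ T : Finset n, (∏ j ∈ T, (w j : ℂ)) *
      det (Matrix.of fun k j => if k ∈ T then Q k j else
        (Matrix.of fun k j => if k = i then 0 else (1 - Q) k j : Matrix n n ℂ) k j) =
      if i ∈ T then (∏ j ∈ T, (w j : ℂ)) * pr Q T else 0 := by
    intro T
    by_cases hiT : i ∈ T
    · rw [if_pos hiT, pr]
      congr 2
      ext k j
      by_cases hk : k ∈ T
      · simp [hk]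
      · have : k ≠ i := fun h => hk (h ▸ hiT)
        simp [hk, this]
    · rw [if_neg hiT]
      rw [det_eq_zero_of_row_eq_zero i fun j => ?_, mul_zero]
      simp [hiT]
  rw [Finset.sum_congr rfl fun T _ => h2 T, ← Finset.sum_filter] at h
  rw [← h]
  have h3 : (Matrix.of fun k j => (w k : ℂ) * Q k j +
      (Matrix.of fun k j => if k = i then 0 else (1 - Q) k j : Matrix n n ℂ) k j) =
      (tm Q w).updateRow i (fun j => (w i : ℂ) * Q i j) := by
    ext k j
    by_cases hk : k = i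
    · subst hk
      simp
    · rw [updateRow_ne hk, tm_apply]
      simp [hk]
  rw [h3, ← cramer_transpose_apply, cramer_eq_adjugate_mulVec]
  have h4 : (tm Q w).adjugate *ᵥ (Pi.single i 1) = (tm Q w).det • v := by
    rw [← hv, mulVec_mulVec, adjugate_mul, smul_mulVec, one_mulVec]
  have h5 : ∀ j, (tm Q w).adjugate j i = (tm Q w).det * v j := by
    intro j
    have := congrFun h4 j
    simpa [mulVec_single, smul_eq_mul] using this
  rw [← adjugate_transpose]
  simp only [mulVec, dotProduct, transpose_apply, h5]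
  rw [Finset.mul_sum, Finset.sum_mul]
  refine Finset.sum_congr rfl fun j _ => by ring

theorem posSemidef_sub_sq {Q : Matrix n n ℂ} (h0 : Q.PosSemidef) (h1 : (1 - Q).PosSemidef) :
    (Q - Q * Q).PosSemidef := by
  have e : Q - Q * Q = Q * (1 - Q) * Qᴴ + (1 - Q) * Q * (1 - Q)ᴴ := by
    rw [h0.isHermitian.eq, h1.isHermitian.eq]; noncomm_ring
  rw [e]
  exact (h1.mul_mul_conjTranspose_same Q).add (h0.mul_mul_conjTranspose_same (1 - Q))

/-- the form `Q - Q² + Q W Q` -/
noncomputable def kf (Q : Matrix n n ℂ) (w : n → ℝ) : Matrix n n ℂ :=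
  (Q - Q * Q) + Q * diagonal (fun i => ((w i : ℝ) : ℂ)) * Qᴴ

theorem kf_eq {Q : Matrix n n ℂ} (h0 : Q.PosSemidef) (w : n → ℝ) : Q * tm Q w = kf Q w := by
  have hd : diagonal (fun i => ((w i : ℝ) : ℂ) - 1) =
      diagonal (fun i => ((w i : ℝ) : ℂ)) - (1 : Matrix n n ℂ) := by
    rw [← diagonal_one, diagonal_sub]
  rw [kf, tm, hd, h0.isHermitian.eq]
  noncomm_ring

theorem posSemidef_diag {w : n → ℝ} (hw : ∀ i, 0 ≤ w i) :
    (diagonal (fun i => ((w i : ℝ) : ℂ)) : Matrix n n ℂ).PosSemidef := by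
  refine PosSemidef.diagonal fun i => ?_
  simpa using hw i

theorem posSemidef_kf {Q : Matrix n n ℂ} (h0 : Q.PosSemidef) (h1 : (1 - Q).PosSemidef)
    {w : n → ℝ} (hw : ∀ i, 0 ≤ w i) : (kf Q w).PosSemidef :=
  (posSemidef_sub_sq h0 h1).add ((posSemidef_diag hw).mul_mul_conjTranspose_same Q)

theorem det_tm_nonneg {Q : Matrix n n ℂ} (h0 : Q.PosSemidef) (h1 : (1 - Q).PosSemidef)
    {w : n → ℝ} (hw : ∀ i, 0 ≤ w i) : 0 ≤ det (tm Q w) := by
  obtain ⟨B, hB⟩ : ∃ B : Matrix n n ℂ, Q = Bᴴ * B := by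
    open scoped MatrixOrder in
    obtain ⟨B, hB⟩ := CStarAlgebra.nonneg_iff_eq_star_mul_self.1 h0.nonneg
    exact ⟨B, hB⟩
  have hP : (1 - B * Bᴴ).PosSemidef := by
    have e : 1 - B * Bᴴ = (1 - B * Bᴴ) * (1 - B * Bᴴ)ᴴ + B * (1 - Bᴴ * B) * Bᴴ := by
      rw [conjTranspose_sub, conjTranspose_one, conjTranspose_mul, conjTranspose_conjTranspose]
      noncomm_ring
    rw [e]
    rw [hB] at h1
    exact (posSemidef_self_mul_conjTranspose _).add (h1.mul_mul_conjTranspose_same B)
  have hd : diagonal (fun i => ((w i : ℝ) : ℂ) - 1) =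
      diagonal (fun i => ((w i : ℝ) : ℂ)) - (1 : Matrix n n ℂ) := by
    rw [← diagonal_one, diagonal_sub]
  have e : det (tm Q w) =
      det ((1 - B * Bᴴ) + B * diagonal (fun i => ((w i : ℝ) : ℂ)) * Bᴴ) := by
    rw [tm, hB, ← Matrix.mul_assoc, det_one_add_mul_comm, hd]
    congr 1
    noncomm_ring
  rw [e]
  exact (hP.add ((posSemidef_diag hw).mul_mul_conjTranspose_same B)).det_nonneg

theorem det_tm_ne_zero {Q : Matrix n n ℂ} (h0 : Q.PosSemidef) (h1 : (1 - Q).PosSemidef)
    {w : n → ℝ} (hw : ∀ i, 0 < w i) : det (tm Q w) ≠ 0 := by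
  intro hdet
  obtain ⟨v, hv0, hv⟩ := exists_mulVec_eq_zero_iff.2 hdet
  have h2 : kf Q w *ᵥ v = 0 := by
    rw [← kf_eq h0, ← mulVec_mulVec, hv, mulVec_zero]
  have h3 : star v ⬝ᵥ ((Q - Q * Q) *ᵥ v) +
      star v ⬝ᵥ ((Q * diagonal (fun i => ((w i : ℝ) : ℂ)) * Qᴴ) *ᵥ v) = 0 := by
    rw [← dotProduct_add, ← add_mulVec]
    change star v ⬝ᵥ (kf Q w *ᵥ v) = 0
    rw [h2, dotProduct_zero]
  have h4 := (posSemidef_sub_sq h0 h1).dotProduct_mulVec_nonneg v
  have h5 : star v ⬝ᵥ ((Q * diagonal (fun i => ((w i : ℝ) : ℂ)) * Qᴴ) *ᵥ v) =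
      ((∑ i, w i * ‖(Q *ᵥ v) i‖ ^ 2 : ℝ) : ℂ) := by
    rw [h0.isHermitian.eq, ← mulVec_mulVec, ← mulVec_mulVec, dotProduct_mulVec]
    have e : star v ᵥ* Q = star (Q *ᵥ v) := by
      rw [star_mulVec, h0.isHermitian.eq]
    rw [e]
    simp only [dotProduct, mulVec_diagonal, Pi.star_apply]
    push_cast
    refine Finset.sum_congr rfl fun i _ => ?_
    rw [← Complex.conj_mul']
    simp only [RCLike.star_def]
    ring
  have h6 : (0 : ℝ) ≤ ∑ i, w i * ‖(Q *ᵥ v) i‖ ^ 2 :=
    Finset.sum_nonneg fun i _ => mul_nonneg (hw i).le (by positivity)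
  have h7 : ∑ i, w i * ‖(Q *ᵥ v) i‖ ^ 2 = 0 := by
    rw [h5] at h3
    have h8 := congrArg Complex.re h3
    rw [Complex.add_re, Complex.ofReal_re, Complex.zero_re] at h8
    have h9 : 0 ≤ (star v ⬝ᵥ ((Q - Q * Q) *ᵥ v)).re := (Complex.le_def.1 h4).1
    linarith
  have h8 : Q *ᵥ v = 0 := by
    funext i
    have h9 := (Finset.sum_eq_zero_iff_of_nonneg fun i _ =>
      mul_nonneg (hw i).le (sq_nonneg ‖(Q *ᵥ v) i‖)).1 h7 i (Finset.mem_univ i)
    rcases mul_eq_zero.1 h9 with h | h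
    · exact absurd h (hw i).ne'
    · simpa using h
  apply hv0
  have h9 : tm Q w *ᵥ v = v := by
    rw [tm, add_mulVec, one_mulVec, ← mulVec_mulVec, h8, mulVec_zero, add_zero]
  rw [← h9, hv]

theorem det_tm_pos {Q : Matrix n n ℂ} (h0 : Q.PosSemidef) (h1 : (1 - Q).PosSemidef)
    {w : n → ℝ} (hw : ∀ i, 0 < w i) : 0 < det (tm Q w) :=
  lt_of_le_of_ne (det_tm_nonneg h0 h1 fun i => (hw i).le) (det_tm_ne_zero h0 h1 hw).symm

theorem pr_nonneg {Q : Matrix n n ℂ} (h0 : Q.PosSemidef) (h1 : (1 - Q).PosSemidef)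
    (T : Finset n) : 0 ≤ pr Q T := by
  let g : ℝ → ℂ := fun μ => det (Matrix.of fun i j =>
    if i ∈ T then Q i j + (μ : ℂ) * (1 - Q) i j else (1 - Q) i j)
  have hg0 : g 0 = pr Q T := by
    simp only [g, pr]
    congr 1
    ext i j
    by_cases hi : i ∈ T <;> simp [hi]
  have hgc : Continuous g := by
    refine Continuous.matrix_det (continuous_matrix fun i j => ?_)
    by_cases hi : i ∈ T
    · simp only [of_apply, hi, if_true]
      fun_prop
    · simp only [of_apply, hi, if_false]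
      fun_prop
  have hpos : ∀ μ : ℝ, 0 < μ → 0 ≤ g μ := by
    intro μ hμ
    have hw : ∀ i, 0 ≤ (fun i => if i ∈ T then μ⁻¹ else 0 : n → ℝ) i := by
      intro i
      simp only
      split_ifs
      · positivity
      · exact le_rfl
    have e : g μ = det (diagonal (fun i => if i ∈ T then (μ : ℂ) else 1)) *
        det (tm Q (fun i => if i ∈ T then μ⁻¹ else 0)) := by
      rw [← det_mul]
      simp only [g]
      congr 1
      ext i j
      rw [diagonal_mul, tm_apply]
      have hμ' : (μ : ℂ) ≠ 0 := by exact_mod_cast hμ.ne'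
      by_cases hi : i ∈ T
      · simp only [of_apply, hi, if_true]
        push_cast
        field_simp
      · simp only [of_apply, hi, if_false]
        push_cast
        ring
    rw [e]
    refine mul_nonneg ?_ (det_tm_nonneg h0 h1 hw)
    rw [det_diagonal]
    refine Finset.prod_nonneg fun i _ => ?_
    split_ifs
    · exact_mod_cast hμ.le
    · exact zero_le_one
  rw [← hg0]
  have hlim : Tendsto g (𝓝[>] 0) (𝓝 (g 0)) := (hgc.tendsto 0).mono_left nhdsWithin_le_nhds
  exact ge_of_tendsto hlim (by filter_upwards [self_mem_nhdsWithin] with μ hμ using hpos μ hμ)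

/-- comparison of two positive forms -/
theorem compare {K K' : Matrix n n ℂ} (hK : K.PosSemidef) (hK' : K'.PosSemidef) {t : ℝ}
    (ht : 0 < t) (h : ((t : ℂ) • K' - K).PosSemidef) {b v v' : n → ℂ} (hv : K *ᵥ v = b)
    (hv' : K' *ᵥ v' = b) : (star b ⬝ᵥ v').re ≤ t * (star b ⬝ᵥ v).re := by
  have hKs : ∀ x y : n → ℂ, star x ⬝ᵥ (K *ᵥ y) = star (star y ⬝ᵥ (K *ᵥ x)) := by
    intro x y
    rw [← star_dotProduct_star, star_star, star_mulVec, hK.isHermitian.eq, dotProduct_mulVec]
  set s : ℝ := t⁻¹ with hs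
  have hs0 : 0 < s := inv_pos.2 ht
  have h1 := hK.dotProduct_mulVec_nonneg (v - (s : ℂ) • v')
  have h2 := h.dotProduct_mulVec_nonneg v'
  have e1 : star v ⬝ᵥ (K *ᵥ v) = star v ⬝ᵥ b := by rw [hv]
  have e2 : star v' ⬝ᵥ (K *ᵥ v) = star v' ⬝ᵥ b := by rw [hv]
  have e3 : star v ⬝ᵥ (K *ᵥ v') = star (star v' ⬝ᵥ b) := by rw [hKs, e2]
  have e4 : star v' ⬝ᵥ (K' *ᵥ v') = star v' ⬝ᵥ b := by rw [hv']
  have e5 : star b ⬝ᵥ v' = star (star v' ⬝ᵥ b) := by
    rw [← star_dotProduct_star, star_star]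
  have e6 : star b ⬝ᵥ v = star (star v ⬝ᵥ b) := by
    rw [← star_dotProduct_star, star_star]
  have f1 : star (v - (s : ℂ) • v') ⬝ᵥ (K *ᵥ (v - (s : ℂ) • v')) =
      star v ⬝ᵥ b - (s : ℂ) * star (star v' ⬝ᵥ b) - (s : ℂ) * (star v' ⬝ᵥ b) +
        (s : ℂ) * (s : ℂ) * (star v' ⬝ᵥ (K *ᵥ v')) := by
    rw [mulVec_sub, mulVec_smul, star_sub, star_smul, sub_dotProduct, dotProduct_sub,
      dotProduct_sub, dotProduct_smul, dotProduct_smul, smul_dotProduct, smul_dotProduct, e1, e2,
      e3]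
    simp only [smul_eq_mul, RCLike.star_def, Complex.conj_ofReal]
    ring
  have f2 : star v' ⬝ᵥ (((t : ℂ) • K' - K) *ᵥ v') =
      (t : ℂ) * (star v' ⬝ᵥ b) - star v' ⬝ᵥ (K *ᵥ v') := by
    rw [sub_mulVec, smul_mulVec, dotProduct_sub, dotProduct_smul, e4, smul_eq_mul]
  rw [f1] at h1
  rw [f2] at h2
  rw [e5, e6]
  have g1 := (Complex.le_def.1 h1).1
  have g2 := (Complex.le_def.1 h2).1
  simp only [Complex.zero_re, Complex.add_re, Complex.sub_re, Complex.mul_re, Complex.ofReal_re,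
    Complex.ofReal_im, zero_mul, sub_zero, RCLike.star_def, Complex.conj_re, mul_zero,
    Complex.mul_im, add_zero] at g1 g2 ⊢
  set x := (star v ⬝ᵥ b).re
  set y := (star v' ⬝ᵥ b).re
  set z := (star v' ⬝ᵥ (K *ᵥ v')).re
  have hts : t * s = 1 := mul_inv_cancel₀ ht.ne'
  have g3 : s * s * z ≤ s * y := by
    have : s * s * z ≤ s * s * (t * y) := mul_le_mul_of_nonneg_left (by linarith) (by positivity)
    calc s * s * z ≤ s * s * (t * y) := this
      _ = (t * s) * (s * y) := by ring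
      _ = s * y := by rw [hts, one_mul]
  have g4 : s * y ≤ x := by linarith
  calc y = t * (s * y) := by rw [← mul_assoc, hts, one_mul]
    _ ≤ t * x := mul_le_mul_of_nonneg_left g4 ht.le

end Fin

end Vale.Agent.P143.H726
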